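import Vale.Agent.Lib.P066.Union
import Vale.Agent.Lib.P066.Pair

open Vale.Agent.Lib.P066

namespace Vale.Agent.Results.P066.AA0_union

/-- The positivity of the elementary coefficients of the chromatic quasisymmetric function of a
natural unit interval graph `G(h)` on `n ≥ 1` vertices, as far as it is settled here.
For every `G(h)` and every expansion `c`: the coefficient of each hook `(a, 1^b)`, `a ≥ 2`, lies in
`ℕ[q]`, the coefficient of `(n-2, 2)` lies in `ℕ[q]`, and every two-part coefficient is given by the
explicit formula.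
If moreover `h i ≤ i + 2` for all `i` (no four pairwise adjacent vertices), the expansion exists
and all its coefficients lie in `ℕ[q]`. -/
theorem result {n : ℕ} (hn : 0 < n) (h : Fin n → Fin n) (hm : Monotone h) (hi : ∀ i, i ≤ h i) :
    (∀ c : n.Partition → Polynomial ℤ, IsEExpansion h c →
      (∀ (a b : ℕ) (l : n.Partition), 2 ≤ a → l.parts = a ::ₘ Multiset.replicate b 1 →
        NonnegCoeffs (c l)) ∧
      (∀ l : n.Partition, 3 ≤ n → l.parts = {n - 2, 2} → NonnegCoeffs (c l)) ∧
      (∀ (a b : ℕ) (l : n.Partition), 0 < a → 0 < b → a + b = n → l.parts = {a, b} →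
        (if a = b then 2 else 1) * c l =
          qI Polynomial.X a * qI Polynomial.X b *
            ∑ U ∈ Finset.powersetCard a (Finset.univ : Finset (Fin n)),
              Polynomial.X ^ eCount (IsEdge h) U (Finset.univ \ U) *
                tauU (IsEdge h) Polynomial.X U * tauU (IsEdge h) Polynomial.X (Finset.univ \ U)
          - qI Polynomial.X n * tauU (IsEdge h) Polynomial.X Finset.univ)) ∧
    ((∀ i : Fin n, (h i : ℕ) ≤ i + 2) →
      (∃ c : n.Partition → Polynomial ℤ, IsEExpansion h c) ∧
      ∀ c : n.Partition → Polynomial ℤ, IsEExpansion h c → ∀ l, NonnegCoeffs (c l)) := by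
  refine ⟨fun c hc => ⟨fun a b l ha hl => coeff_hook_nonneg hm hc a b ha l hl,
    fun l h3 hl => Pair.coeff_pred_two_nonneg hm hc h3 l hl,
    fun a b l ha hb hab hl => ?_⟩, fun h3 => k4free_expansion hn hm hi h3⟩
  have h1 := coeff_two_part_int hm hc a b ha hb hab l hl
  have h2 : ∑ U ∈ Finset.powersetCard a (Finset.univ : Finset (Fin n)),
      rZ h U * Polynomial.X ^ eCount (IsEdge h) U (Finset.univ \ U) * rZ h (Finset.univ \ U) =
      qI Polynomial.X a * qI Polynomial.X b *
        ∑ U ∈ Finset.powersetCard a (Finset.univ : Finset (Fin n)),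
          Polynomial.X ^ eCount (IsEdge h) U (Finset.univ \ U) *
            tauU (IsEdge h) Polynomial.X U * tauU (IsEdge h) Polynomial.X (Finset.univ \ U) := by
    rw [Finset.mul_sum]
    refine Finset.sum_congr rfl fun U hU => ?_
    have hc1 := (Finset.mem_powersetCard.mp hU).2
    have hc2 : (Finset.univ \ U).card = b := by
      rw [Finset.card_sdiff_of_subset (Finset.subset_univ _), Finset.card_univ, Fintype.card_fin,
        hc1]
      omega
    unfold rZ rU
    rw [hc1, hc2]
    ring
  rw [h2] at h1
  rw [h1]
  have h3 : rZ h Finset.univ = qI Polynomial.X n * tauU (IsEdge h) Polynomial.X Finset.univ := by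
    unfold rZ rU
    rw [Finset.card_univ, Fintype.card_fin]
  rw [h3]
  ring

end Vale.Agent.Results.P066.AA0_union
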